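import Vale.Agent.Lib.PolyTime.More

/-! More polynomial-time functions, and coded types with a polynomial-time decoder. -/

namespace Vale.Agent.Lib.Count

open Vale.Agent.Lib.PolyTime

section General

variable {α β : Type} [Enc α] [Enc β]

@[fun_prop] theorem pt_size {f : α → ℕ} (hf : PT f) : PT fun a => Nat.size (f a) :=
  hf.bits.length.congr fun _ => (Nat.size_eq_bits_len _).symm

theorem size_pow_le (x k : ℕ) : Nat.size (x ^ k) ≤ k * Nat.size x + 1 := by
  rw [Nat.size_le, pow_succ, mul_comm k, pow_mul]
  have h1 := Nat.pow_le_pow_left (Nat.lt_size_self x).le k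
  have h2 : 0 < (2 ^ x.size) ^ k := by positivity
  omega

theorem pt_pow' {f k : α → ℕ} (hf : PT f) (hk : PT k) (hb : PB k) : PT fun a => f a ^ k a := by
  have key : ∀ x j : ℕ, (fun s : ℕ => s * x)^[j] 1 = x ^ j := fun x j => by
    induction j with
    | zero => rfl
    | succ j ih => rw [Function.iterate_succ_apply', ih]; ring
  refine (PT.iterate (f := fun a (s : ℕ) => s * f a) (i := fun _ => 1) (by fun_prop) hk hb
    (by fun_prop) ((hb.mul hf.1).add (PB.const 1)) fun a j hj => ?_).congr fun a => (key _ _).symm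
  rw [key, sz_nat]
  exact (size_pow_le _ _).trans (Nat.add_le_add_right (Nat.mul_le_mul_right _ hj) _)

theorem pt_two_pow {k : α → ℕ} (hk : PT k) (hb : PB k) : PT fun a => 2 ^ k a :=
  pt_pow' (PT.const 2) hk hb

@[fun_prop] theorem pt_pow {f : α → ℕ} (k : ℕ) (hf : PT f) : PT fun a => f a ^ k :=
  pt_pow' hf (PT.const k) (PB.const k)

/-- The number written by a list of bits. -/
def val (w : List Bool) : ℕ := w.foldr (fun b acc => acc + acc + if b = true then 1 else 0) 0

theorem foldr_div (b : ℕ) (l : List Bool) : l.foldr (fun (d : Bool) (s : ℕ × ℕ) =>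
    (s.1 + s.1 + if d = true then 1 else 0,
      if 0 < b ∧ (s.2 + s.2 + 1) * b ≤ s.1 + s.1 + if d = true then 1 else 0 then s.2 + s.2 + 1
      else s.2 + s.2)) (0, 0) = (val l, val l / b) := by
  induction l with
  | nil => simp [val]
  | cons d l ih =>
    have e : val (d :: l) = val l + val l + if d = true then 1 else 0 := rfl
    rw [List.foldr_cons, ih, e]
    have hd : (if d = true then 1 else 0) ≤ 1 := by split_ifs <;> omega
    generalize (if d = true then 1 else 0) = x at hd
    generalize val l = v
    refine Prod.ext rfl ?_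
    rcases Nat.eq_zero_or_pos b with rfl | hb
    · simp
    have h1 := Nat.div_add_mod v b
    have h2 := Nat.mod_lt v hb
    dsimp only
    rw [mul_comm] at h1
    rw [eq_comm, Nat.div_eq_iff hb]
    split_ifs with h <;> simp only [add_mul, one_mul, hb, true_and] at h ⊢ <;> omega

theorem val_bits (k : ℕ) : val k.bits = k :=
  foldr_bits k _ id rfl fun b k => by cases b <;> simp <;> ring

theorem size_double (s : ℕ) {x : ℕ} (hx : x ≤ 1) : Nat.size (s + s + x) ≤ Nat.size s + 1 := by
  rw [Nat.size_le, pow_succ]
  have := Nat.lt_size_self s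
  omega

@[fun_prop] theorem pt_div {f g : α → ℕ} (hf : PT f) (hg : PT g) : PT fun a => f a / g a := by
  have h := PT.foldr_add (f := fun a (d : Bool) (s : ℕ × ℕ) =>
    (s.1 + s.1 + if d = true then 1 else 0,
      if 0 < g a ∧ (s.2 + s.2 + 1) * g a ≤ s.1 + s.1 + if d = true then 1 else 0 then s.2 + s.2 + 1
      else s.2 + s.2)) (i := fun _ => (0, 0)) (by fun_prop) hf.bits (by fun_prop) (PB.const 3)
    fun a s d _ => by
      have h1 := size_double s.1 (x := if d = true then 1 else 0) (by split_ifs <;> omega)
      have h2 := size_double s.2 (x := 1) le_rfl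
      have h3 := size_double s.2 (x := 0) zero_le_one
      rw [sz_prod s]
      simp only [sz_pair, sz_nat, add_zero] at *
      split_ifs at * <;> omega
  exact h.snd.congr fun a => by rw [foldr_div, val_bits]

@[fun_prop] theorem pt_val {w : α → List Bool} (hw : PT w) : PT fun a => val (w a) :=
  PT.foldr_add (f := fun _ (d : Bool) (s : ℕ) => s + s + if d = true then 1 else 0)
    (i := fun _ => 0) (by fun_prop) hw (by fun_prop) (PB.const 1)
    fun a s d _ => size_double s (by split_ifs <;> omega)

@[fun_prop] theorem pt_range_length [Inhabited β] {l : α → List β} (hl : PT l) :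
    PT fun a => List.range (l a).length := PT.idx hl

@[fun_prop] theorem pt_enc {f : α → β} (hf : PT f) : PT fun a => enc (f a) := hf.encN
@[fun_prop] theorem pt_fstN {f : α → ℕ} (hf : PT f) : PT fun a => fstN (f a) := hf.fstN
@[fun_prop] theorem pt_sndN {f : α → ℕ} (hf : PT f) : PT fun a => sndN (f a) := hf.sndN
@[fun_prop] theorem pt_pr {f g : α → ℕ} (hf : PT f) (hg : PT g) : PT fun a => pr (f a) (g a) :=
  hf.pr hg
@[fun_prop] theorem pt_imp {p q : α → Prop} (hp : PT p) (hq : PT q) : PT fun a => p a → q a :=
  (hp.not.or hq).congr fun _ => propext imp_iff_not_or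

theorem pt_eval {f : α → ℕ} (hf : PT f) (Q : Polynomial ℕ) : PT fun a => Q.eval (f a) := by
  induction Q using Polynomial.induction_on' with
  | add p q hp hq => exact (hp.add hq).congr fun _ => Polynomial.eval_add
  | monomial n c =>
    exact ((PT.const c).mul (pt_pow n hf)).congr fun _ => Polynomial.eval_monomial

/-- Modular exponentiation. -/
theorem pt_powMod {x k p : α → ℕ} (hx : PT x) (hk : PT k) (hp : PT p) :
    PT fun a => if p a = 0 then 0 else x a ^ k a % p a := by
  have h := PT.foldl_inv (f := fun a (s : ℕ) (b : Bool) =>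
      if p a = 0 then 0 else s * s * (if b = true then x a else 1) % p a)
    (l := fun a => (k a).bits.reverse) (i := fun a => if p a = 0 then 0 else 1 % p a)
    (by fun_prop) (by fun_prop) (by fun_prop) hp.1 (fun a s => s ≤ p a)
    (fun a => by split_ifs with h; exacts [by omega, (Nat.mod_lt _ (by omega)).le])
    (fun a s y _ _ => by
      by_cases h : p a = 0
      · simp [h]
      · rw [if_neg h]; exact (Nat.mod_lt _ (by omega)).le)
    (fun a s h => sz_nat_mono h)
  refine h.congr fun a => ?_
  rw [List.foldl_reverse]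
  by_cases h0 : p a = 0
  · simp only [h0, if_true]
    cases (k a).bits <;> simp
  · simp only [if_neg h0]
    generalize k a = n
    induction n using Nat.binaryRec' with
    | zero => simp
    | bit b n hn ih =>
      rw [Nat.bits_append_bit n b hn, List.foldr_cons, ← ih, Nat.bit_val]
      cases b
      · simp [two_mul, pow_add, Nat.mul_mod]
      · simp [two_mul, pow_add, Nat.mul_mod]

end General

/-- Coded types with a polynomial-time decoder and a polynomial-time size function. -/
class Cod (α : Type) [Enc α] : Prop where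
  ex_dec : ∃ dec : ℕ → α, (∀ a, dec (enc a) = a) ∧ PT dec
  pt_sz : PT fun a : α => sz a

section
variable {α β : Type} [Enc α] [Enc β]

/-- The decoder. -/
noncomputable def dec (β : Type) [Enc β] [Cod β] : ℕ → β := (Cod.ex_dec (α := β)).choose

@[simp] theorem dec_enc [Cod β] (b : β) : dec β (enc b) = b := (Cod.ex_dec (α := β)).choose_spec.1 b

@[fun_prop] theorem pt_dec [Cod β] {f : α → ℕ} (hf : PT f) : PT fun a => dec β (f a) :=
  (Cod.ex_dec (α := β)).choose_spec.2.comp hf

@[fun_prop] theorem pt_sz [Cod β] {f : α → β} (hf : PT f) : PT fun a => sz (f a) :=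
  (Cod.pt_sz (α := β)).comp hf

/-- Every polynomial bound is below a computable one. -/
theorem PB.pt [Cod α] {g : α → ℕ} (hg : PB g) : ∃ B : α → ℕ, PT B ∧ PB B ∧ ∀ a, g a ≤ B a := by
  obtain ⟨Q, hQ⟩ := hg
  exact ⟨fun a => Q.eval (sz a), pt_eval (pt_sz PT.id) Q, PB.sz.eval Q, hQ⟩

instance : Cod ℕ := ⟨⟨fun n => n, fun _ => rfl, PT.id⟩, pt_size PT.id⟩
instance : Cod Unit := ⟨⟨fun _ => (), fun _ => rfl, PT.const _⟩, PT.const _⟩
instance : Cod Bool :=
  ⟨⟨fun n => decide (n = 1), fun b => by cases b <;> rfl, by fun_prop⟩, PT.const _⟩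
instance : Cod Prop :=
  ⟨⟨fun n => n = 1, fun p => by by_cases h : p <;> simp [enc, h], by fun_prop⟩, PT.const _⟩

instance [Cod α] [Cod β] : Cod (α × β) :=
  ⟨⟨fun n => (dec α (fstN n), dec β (sndN n)), fun ⟨a, b⟩ => by simp, by fun_prop⟩,
    (by fun_prop : PT fun p : α × β => 2 * sz p.1 + sz p.2 + 1)⟩

theorem unA_snd (n : ℕ) : ∀ r, 2 * (unA n r).2 ≤ n := by
  induction n using Nat.strong_induction_on with
  | _ n ih =>
    intro r
    by_cases h : n % 2 = 0
    · rw [unA_even h]; dsimp only; omega
    · rw [unA_odd h]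
      have := ih (n / 4) (by omega) (2 * r + n / 2 % 2)
      omega

theorem length_le_size (l : List α) : l.length ≤ Nat.size (enc l) := by
  have key : 2 ^ l.length ≤ enc l + 1 := by
    induction l with
    | nil => simp
    | cons a l ih =>
      have h := unA_snd (pr (enc a) (enc l)) 0
      have e : (unA (pr (enc a) (enc l)) 0).2 = enc l := sndN_pr _ _
      rw [e] at h
      rw [enc_cons, List.length_cons, pow_succ]; omega
  by_contra h
  have h1 := Nat.lt_size_self (enc l)
  have h2 : 2 ^ (Nat.size (enc l) + 1) ≤ 2 ^ l.length := Nat.pow_le_pow_right two_pos (by omega)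
  rw [pow_succ] at h2
  omega

instance [Cod α] : Cod (List α) := by
  have : Inhabited α := ⟨dec α 0⟩
  refine ⟨?_, (by fun_prop : PT fun l : List α => (l.map fun b => 2 * sz b + 2).sum).congr
    fun l => sz_eq_sum l⟩
  let F : ℕ × List α → ℕ × List α := fun s =>
    if s.1 = 0 then s else (sndN (s.1 - 1), s.2 ++ [dec α (fstN (s.1 - 1))])
  have hd : PT fun n : ℕ => dec α (fstN (n - 1)) := by fun_prop
  obtain ⟨Q, hQ⟩ := hd.1
  have key : ∀ (n k : ℕ), (F^[k] (n, [])).1 ≤ n ∧
      sz (F^[k] (n, [])).2 ≤ k * (2 * Q.eval (sz n) + 2) := by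
    intro n k
    induction k with
    | zero => simp
    | succ k ih =>
      rw [Function.iterate_succ_apply']
      generalize F^[k] (n, []) = s at ih
      simp only [F]
      split_ifs with h
      · exact ⟨ih.1, by rw [add_mul]; omega⟩
      · have h1 := unA_snd (s.1 - 1) 0
        have h2 := (hQ s.1).trans (eval_mono Q (sz_nat_mono ih.1))
        refine ⟨by unfold sndN; omega, ?_⟩
        rw [sz_append, add_mul]
        simp only [sz_cons, sz_nil] at h2 ⊢
        omega
  have h1 : PT fun n : ℕ => F^[Nat.size n] (n, []) :=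
    PT.iterate (f := fun _ s => F s) (by fun_prop) (by fun_prop) PB.sz (by fun_prop)
      (B := fun n => 2 * sz n + sz n * (2 * Q.eval (sz n) + 2) + 1)
      ((((PB.const 2).mul PB.sz).add (PB.sz.mul ((PB.sz.eval Q).lin 2 2))).add (PB.const 1))
      fun n k hk => by
        obtain ⟨h1, h2⟩ := key n k
        have h3 := sz_nat_mono h1
        have h4 : k * (2 * Q.eval (sz n) + 2) ≤ sz n * (2 * Q.eval (sz n) + 2) :=
          Nat.mul_le_mul_right _ hk
        change sz (F^[k] (n, [])) ≤ _
        rw [sz_prod]; omega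
  refine ⟨fun n => (F^[Nat.size n] (n, [])).2, fun l => ?_, h1.snd⟩
  have key2 : ∀ (k : ℕ) (l acc : List α), l.length ≤ k → F^[k] (enc l, acc) = (0, acc ++ l) := by
    intro k
    induction k with
    | zero => intro l acc h; cases l <;> simp_all
    | succ k ih =>
      intro l acc h
      rw [Function.iterate_succ_apply]
      cases l with
      | nil => exact ih [] acc (by simp)
      | cons a l =>
        have e : F (enc (a :: l), acc) = (enc l, acc ++ [a]) := by simp [F]
        rw [e, ih l _ (by simpa using h)]; simp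
  beta_reduce
  rw [key2 _ l [] (length_le_size l)]; simp

end

end Vale.Agent.Lib.Count
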