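import Vale.Agent.Lib.CH.Cod

/-! The counting hierarchy for typed predicates and functions, with its closure properties. -/

namespace Vale.Agent.Lib.Count

open Vale.Agent.Lib.PolyTime Finset

open Classical in
/-- The number of `y < N` with `P y`. -/
noncomputable def cnt (N : ℕ) (P : ℕ → Prop) : ℕ := ((range N).filter P).card

theorem cnt_congr {N : ℕ} {P Q : ℕ → Prop} (h : ∀ y < N, P y ↔ Q y) : cnt N P = cnt N Q := by
  unfold cnt
  congr 1
  ext y
  simp only [mem_filter, mem_range]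
  exact and_congr_right (h y)

theorem cnt_le (N : ℕ) (P : ℕ → Prop) : cnt N P ≤ N := by
  classical
  exact (card_filter_le _ _).trans (card_range N).le

open Classical in
theorem cnt_succ (N : ℕ) (P : ℕ → Prop) : cnt (N + 1) P = cnt N P + if P N then 1 else 0 := by
  unfold cnt
  rw [range_add_one, filter_insert]
  split_ifs with h
  · rw [card_insert_of_notMem (by simp)]
  · rfl

@[simp] theorem cnt_zero (P : ℕ → Prop) : cnt 0 P = 0 := by simp [cnt]

theorem cnt_add (N M : ℕ) (P : ℕ → Prop) : cnt (N + M) P = cnt N P + cnt M fun y => P (N + y) := by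
  induction M with
  | zero => simp
  | succ M ih => rw [← add_assoc, cnt_succ, cnt_succ, ih, add_assoc]

theorem cnt_lt (N T : ℕ) : cnt N (fun y => y < T) = min N T := by
  induction N with
  | zero => simp
  | succ N ih => rw [cnt_succ, ih]; split_ifs <;> omega

theorem cnt_not (N : ℕ) (P : ℕ → Prop) : cnt N (fun y => ¬ P y) + cnt N P = N := by
  induction N with
  | zero => simp
  | succ N ih => rw [cnt_succ, cnt_succ]; split_ifs <;> omega

theorem cnt_pos {N : ℕ} {P : ℕ → Prop} : 0 < cnt N P ↔ ∃ y < N, P y := by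
  unfold cnt
  rw [card_pos]
  simp [Finset.Nonempty]

theorem cnt_and_lt {N M : ℕ} (h : N ≤ M) (P : ℕ → Prop) :
    cnt M (fun y => y < N ∧ P y) = cnt N P := by
  obtain ⟨k, rfl⟩ := Nat.exists_eq_add_of_le h
  rw [cnt_add, cnt_congr (Q := P) (fun y hy => by simp [hy])]
  have : cnt k (fun y => N + y < N ∧ P (N + y)) = 0 := by
    by_contra h0
    obtain ⟨y, -, h1, -⟩ := cnt_pos.1 (Nat.pos_of_ne_zero h0)
    omega
  omega

theorem cnt_sum (f : ℕ → ℕ) (M : ℕ) (N : ℕ) (h : ∀ y < N, f y ≤ M) :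
    cnt (N * M) (fun u => u % M < f (u / M)) = ∑ y ∈ range N, f y := by
  induction N with
  | zero => simp
  | succ N ih =>
    rw [add_mul, one_mul, cnt_add, ih fun y hy => h y (by omega), sum_range_succ,
      cnt_congr (Q := fun y => y < f N), cnt_lt, min_eq_right (h N (by omega))]
    intro y hy
    rw [mul_comm, Nat.mul_add_mod, Nat.mod_eq_of_lt hy, Nat.mul_add_div (by omega),
      Nat.div_eq_of_lt hy, add_zero]

/-- The levels. -/
def Lev : ℕ → ∀ {α : Type} [Enc α], (α → Prop) → Prop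
  | 0, _, _, P => PT P
  | j + 1, α, _, P => ∃ (B : α → ℕ) (Q : α × ℕ → Prop), PT B ∧ PB B ∧ Lev j Q ∧
      ∀ a, P a ↔ 2 ^ B a < 2 * cnt (2 ^ B a) fun y => Q (a, y)

theorem Lev.comp : ∀ {j : ℕ} {α β : Type} [Enc α] [Enc β] {P : β → Prop} {f : α → β},
    Lev j P → PT f → Lev j fun a => P (f a)
  | 0, _, _, _, _, _, _, hP, hf => PT.comp hP hf
  | j + 1, α, _, _, _, _, f, ⟨B, Q, h1, h2, h3, h4⟩, hf =>
    ⟨fun a => B (f a), fun p : α × ℕ => Q (f p.1, p.2), h1.comp hf, h2.comp hf,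
      Lev.comp (j := j) h3 (by fun_prop), fun a => h4 (f a)⟩

theorem Lev.congr {j : ℕ} {α : Type} [Enc α] {P Q : α → Prop} (h : Lev j P)
    (e : ∀ a, Q a ↔ P a) : Lev j Q := by
  have : Q = P := funext fun a => propext (e a)
  rwa [this]

theorem Lev.succ {j : ℕ} {α : Type} [Enc α] {P : α → Prop} (h : Lev j P) : Lev (j + 1) P :=
  ⟨fun _ => 0, fun p => P p.1, PT.const _, PB.const _, h.comp (by fun_prop), fun a => by
    rw [pow_zero, ← zero_add 1, cnt_succ]
    by_cases h : P a <;> simp [h]⟩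

theorem Lev.mono {j k : ℕ} {α : Type} [Enc α] {P : α → Prop} (h : Lev j P) (hjk : j ≤ k) :
    Lev k P := by
  induction hjk with
  | refl => exact h
  | step _ ih => exact ih.succ

theorem Lev.ite : ∀ {j : ℕ} {α : Type} [Enc α] {c P Q : α → Prop},
    PT c → Lev j P → Lev j Q → Lev j fun a => (c a ∧ P a) ∨ (¬ c a ∧ Q a)
  | 0, _, _, _, _, _, hc, hP, hQ => (PT.and hc hP).or (hc.not.and hQ)
  | j + 1, α, _, c, _, _, hc, ⟨B, Q, h1, h2, h3, h4⟩, ⟨B', Q', h1', h2', h3', h4'⟩ => by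
    classical
    refine ⟨fun a => if c a then B a else B' a, _, by fun_prop,
      (h2.add h2').of_le fun a => by split_ifs <;> omega,
      Lev.ite (j := j) (c := fun p : α × ℕ => c p.1) (by fun_prop) h3 h3', fun a => ?_⟩
    by_cases h : c a <;> simp [h, h4, h4']

theorem Lev.thr {j : ℕ} {α : Type} [Enc α] {B T : α → ℕ} {Q : α × ℕ → Prop} (hB : PT B)
    (hb : PB B) (hT : PT T) (hQ : Lev j Q) :
    Lev (j + 1) fun a => T a < cnt (2 ^ B a) fun y => Q (a, y) := by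
  have h2 : PT fun p : α × ℕ => 2 ^ B p.1 := (pt_two_pow hB hb).comp (by fun_prop)
  have h3 : PT fun p : α × ℕ => p.2 - 2 ^ B p.1 < 2 ^ B p.1 - T p.1 := by fun_prop
  refine ⟨fun a => B a + 1, _, by fun_prop, hb.add (PB.const 1),
    Lev.ite (c := fun p : α × ℕ => p.2 < 2 ^ B p.1) (by fun_prop) hQ
      (Lev.mono (j := 0) h3 (Nat.zero_le _)), fun a => ?_⟩
  have e1 := cnt_add (2 ^ B a) (2 ^ B a) fun y => (y < 2 ^ B a ∧ Q (a, y)) ∨
    (¬ y < 2 ^ B a ∧ y - 2 ^ B a < 2 ^ B a - T a)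
  rw [cnt_congr (N := 2 ^ B a) (Q := fun y => Q (a, y)) fun y hy => by simp [hy],
    cnt_congr (P := fun y => (2 ^ B a + y < 2 ^ B a ∧ _) ∨ _) (Q := fun y => y < 2 ^ B a - T a)
      fun y hy => by simp, cnt_lt] at e1
  have := cnt_le (2 ^ B a) fun y => Q (a, y)
  rw [pow_succ, mul_two, e1]
  omega

theorem Lev.not : ∀ {j : ℕ} {α : Type} [Enc α] {P : α → Prop}, Lev j P → Lev j fun a => ¬ P a
  | 0, _, _, _, hP => PT.not hP
  | j + 1, _, _, _, ⟨B, Q, h1, h2, h3, h4⟩ => by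
    have h5 := pt_two_pow h1 h2
    refine (Lev.thr (T := fun a => (2 ^ B a - 1) / 2) h1 h2 (by fun_prop)
      (Lev.not (j := j) h3)).congr fun a => ?_
    have h6 := cnt_not (2 ^ B a) fun y => Q (a, y)
    have h7 : 0 < 2 ^ B a := by positivity
    rw [h4]; omega

section
variable {α β γ : Type} [Enc α] [Enc β] [Enc γ]

/-- Predicates in the counting hierarchy. -/
def CH (P : α → Prop) : Prop := ∃ j, Lev j P

theorem CH.of_pt {P : α → Prop} (h : PT P) : CH P := ⟨0, h⟩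

theorem CH.comp {P : β → Prop} {f : α → β} (h : CH P) (hf : PT f) : CH fun a => P (f a) :=
  let ⟨j, h⟩ := h
  ⟨j, h.comp hf⟩

theorem CH.congr {P Q : α → Prop} (h : CH P) (e : ∀ a, Q a ↔ P a) : CH Q :=
  let ⟨j, h⟩ := h
  ⟨j, h.congr e⟩

theorem CH.not {P : α → Prop} (h : CH P) : CH fun a => ¬ P a :=
  let ⟨j, h⟩ := h
  ⟨j, h.not⟩

theorem CH.thr {B T : α → ℕ} {Q : α × ℕ → Prop} (hB : PT B) (hb : PB B) (hT : PT T) (hQ : CH Q) :
    CH fun a => T a < cnt (2 ^ B a) fun y => Q (a, y) :=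
  let ⟨j, h⟩ := hQ
  ⟨j + 1, h.thr hB hb hT⟩

theorem CH.and {P Q : α → Prop} (hP : CH P) (hQ : CH Q) : CH fun a => P a ∧ Q a := by
  obtain ⟨j, hP⟩ := hP
  obtain ⟨k, hQ⟩ := hQ
  have h := Lev.ite (c := fun p : α × ℕ => p.2 = 0) (by fun_prop)
    ((hP.mono (le_max_left j k)).comp (f := fun p : α × ℕ => p.1) (by fun_prop))
    ((hQ.mono (le_max_right j k)).comp (f := fun p : α × ℕ => p.1) (by fun_prop))
  refine (CH.thr (B := fun _ => 1) (T := fun _ => 1) (PT.const _) (PB.const _) (PT.const _)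
    ⟨_, h⟩).congr fun a => ?_
  by_cases h1 : P a <;> by_cases h2 : Q a <;> simp [cnt_succ, h1, h2]

theorem CH.or {P Q : α → Prop} (hP : CH P) (hQ : CH Q) : CH fun a => P a ∨ Q a :=
  (hP.not.and hQ.not).not.congr fun _ => or_iff_not_and_not

theorem CH.ex2 {B : α → ℕ} {Q : α × ℕ → Prop} (hB : PT B) (hb : PB B) (hQ : CH Q) :
    CH fun a => ∃ y < 2 ^ B a, Q (a, y) :=
  (CH.thr hB hb (PT.const 0) hQ).congr fun _ => cnt_pos.symm

/-- Functions with polynomial-size values and graph in the counting hierarchy. -/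
@[fun_prop]
def CF (f : α → β) : Prop := PB (fun a => sz (f a)) ∧ CH fun p : α × ℕ => enc (f p.1) = p.2

theorem CF.of_pt {f : α → β} (h : PT f) : CF f := ⟨h.1, CH.of_pt (by fun_prop)⟩

theorem CF.congr {f g : α → β} (hf : CF f) (h : ∀ a, g a = f a) : CF g := by
  have : g = f := funext h
  rwa [this]

theorem CF.ch {P : α → Prop} (h : CF P) : CH P :=
  (h.2.comp (f := fun a => (a, 1)) (by fun_prop)).congr fun a => by
    by_cases h : P a <;> simp [enc, h]

theorem CH.cf {P : α → Prop} (h : CH P) : CF P := by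
  have h1 := h.comp (f := fun p : α × ℕ => p.1) (by fun_prop)
  refine ⟨PB.const 1, ((h1.and (CH.of_pt (P := fun p : α × ℕ => p.2 = 1) (by fun_prop))).or
    (h1.not.and (CH.of_pt (P := fun p : α × ℕ => p.2 = 0) (by fun_prop)))).congr fun p => ?_⟩
  by_cases h : P p.1 <;> simp [enc, h, eq_comm]

theorem lt_two_pow_sz (b : β) {B : ℕ} (h : sz b ≤ B) : enc b < 2 ^ B :=
  Nat.size_le.1 ((Enc.size_le b).trans h)

theorem CH.compCF [Cod α] [Cod β] {P : β → Prop} {f : α → β} (h : CH P) (hf : CF f) :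
    CH fun a => P (f a) := by
  obtain ⟨B, h1, h2, h3⟩ := PB.pt hf.1
  refine (CH.ex2 h1 h2 (hf.2.and (h.comp (f := fun p : α × ℕ => dec β p.2)
    (by fun_prop)))).congr fun a => ⟨fun h => ⟨_, lt_two_pow_sz _ (h3 a), rfl, by simpa⟩, ?_⟩
  rintro ⟨y, -, h4, h5⟩
  dsimp only at h4 h5
  rwa [← h4, dec_enc] at h5

@[fun_prop] theorem CF.id : CF fun a : α => a := CF.of_pt PT.id

@[fun_prop] theorem CF.const (b : β) : CF fun _ : α => b := CF.of_pt (PT.const b)

@[fun_prop] theorem CF.mk {f : α → β} {g : α → γ} (hf : CF f) (hg : CF g) :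
    CF fun a => (f a, g a) := by
  refine ⟨((hf.1.lin 2 1).add hg.1).of_le fun a => by rw [sz_pair]; omega, ?_⟩
  refine ((hf.2.comp (f := fun p : α × ℕ => (p.1, fstN p.2)) (by fun_prop)).and
    ((hg.2.comp (f := fun p : α × ℕ => (p.1, sndN p.2)) (by fun_prop)).and
    (CH.of_pt (P := fun p : α × ℕ => pr (fstN p.2) (sndN p.2) = p.2) (by fun_prop)))).congr
    fun p => ⟨fun h => by simp [← h], fun ⟨h1, h2, h3⟩ => ?_⟩
  rw [enc_pair, h1, h2, h3]

@[fun_prop] theorem CF.comp [Cod α] [Cod β] {g : β → γ} {f : α → β} (hg : CF g) (hf : CF f) :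
    CF fun a => g (f a) := by
  refine ⟨hg.1.comp' hf.1, ?_⟩
  have h1 : CF fun p : α × ℕ => f p.1 :=
    ⟨hf.1.comp (f := fun p : α × ℕ => p.1) (by fun_prop),
      hf.2.comp (f := fun p : (α × ℕ) × ℕ => (p.1.1, p.2)) (by fun_prop)⟩
  exact hg.2.compCF (h1.mk (CF.of_pt (f := fun p : α × ℕ => p.2) (by fun_prop)))

theorem PB.compCF {g : β → ℕ} {f : α → β} (hg : PB g) (hf : CF f) : PB fun a => g (f a) :=
  hg.comp' hf.1

theorem CF.pt1 [Cod α] [Cod β] (g : β → γ) {f : α → β} (hg : PT g) (hf : CF f) :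
    CF fun a => g (f a) := (CF.of_pt hg).comp hf

theorem CF.pt2 {δ : Type} [Enc δ] [Cod α] [Cod β] [Cod γ] (g : β → γ → δ) {f : α → β} {f' : α → γ}
    (hg : PT fun p : β × γ => g p.1 p.2) (hf : CF f) (hf' : CF f') :
    CF fun a => g (f a) (f' a) := (CF.of_pt hg).comp (hf.mk hf')

/-- A computable bound on the number of bits. -/
theorem CF.bits [Cod α] {N : α → ℕ} (hN : CF N) :
    ∃ B : α → ℕ, PT B ∧ PB B ∧ ∀ a, N a < 2 ^ B a := by
  obtain ⟨B, h1, h2, h3⟩ := PB.pt hN.1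
  exact ⟨B, h1, h2, fun a => lt_two_pow_sz (N a) (h3 a)⟩

/-- A bound that is uniform along a range. -/
theorem PB.unif [Cod α] {g : α × ℕ → ℕ} {N : α → ℕ} (hg : PB g) (hN : CF N) :
    ∃ B : α → ℕ, PT B ∧ PB B ∧ ∀ a, ∀ y < N a, g (a, y) ≤ B a := by
  obtain ⟨Q, hQ⟩ := hg
  obtain ⟨B, h1, h2, h3⟩ := PB.pt ((((PB.sz.lin 2 1).add hN.1)).eval Q)
  refine ⟨B, h1, h2, fun a y hy => (hQ _).trans (le_trans (eval_mono Q ?_) (h3 a))⟩
  have := sz_nat_mono hy.le
  rw [sz_pair]; omega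

@[fun_prop] theorem CF.cnt [Cod α] {P : α → ℕ → Prop} {N : α → ℕ}
    (hP : CF fun p : α × ℕ => P p.1 p.2) (hN : CF N) : CF fun a => cnt (N a) (P a) := by
  refine ⟨hN.1.of_le fun a => sz_nat_mono (cnt_le _ _), ?_⟩
  obtain ⟨B, h1, h2, h3⟩ := hN.bits
  have h4 : CF fun p : α × ℕ => p.2 < N p.1 :=
    CF.pt2 (fun x y : ℕ => x < y) (by fun_prop) (CF.of_pt (by fun_prop))
      (hN.comp (CF.of_pt (by fun_prop)))
  have h5 := (h4.ch.and hP.ch).comp (f := fun p : (α × ℕ) × ℕ => (p.1.1, p.2)) (by fun_prop)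
  have h6 : PB fun p : α × ℕ => B p.1 := h2.comp (by fun_prop)
  have h7 := CH.thr (B := fun p : α × ℕ => B p.1) (T := fun p => p.2) (by fun_prop) h6
    (by fun_prop) h5
  have h8 := CH.thr (B := fun p : α × ℕ => B p.1) (T := fun p => p.2 - 1) (by fun_prop) h6
    (by fun_prop) h5
  refine (h7.not.and ((CH.of_pt (P := fun p : α × ℕ => p.2 = 0) (by fun_prop)).or h8)).congr
    fun p => ?_
  dsimp only
  rw [cnt_and_lt (h3 p.1).le, enc_nat]
  omega

end

end Vale.Agent.Lib.Count
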